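import Vale.Agent.P221.V.H520.Main
import Vale.Agent.P221.V.Seq

/-!
# P221, part V: the end theorem without open hypotheses
-/

open CategoryTheory MonoidalCategory MonObj Limits Pretriangulated
open Vale.Agent.P251.T Vale.Agent.P251.M Vale.Agent.P251.S
open Vale.Agent.P221.T

universe u

namespace Vale.Agent.P221.V

/-- (V2) -/
theorem specGens (p n : ℕ) [Fact p.Prime] : SpecGens p n :=
  fun _ _ _ _ hA hx hθ _ _ _ _ h => FExt.gens hA hx hθ h

variable {𝒯 : Type u} [Category.{0} 𝒯] [Preadditive 𝒯] [HasZeroObject 𝒯]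
    [HasShift 𝒯 ℤ] [∀ n : ℤ, (shiftFunctor 𝒯 n).Additive] [Pretriangulated 𝒯] [IsTriangulated 𝒯]
    [MonoidalCategory 𝒯] [SymmetricCategory 𝒯] [TensorTriangulated 𝒯] [MonoidalClosed 𝒯]
    [HasCoproducts.{0} 𝒯] [HasProducts.{0} 𝒯] [StableCat 𝒯]

/-- a `p`-complete bounded below object with degreewise finitely generated homotopy, whose system
is an iterated extension in degrees `≥ d`, is in `Thick B` -/
theorem thick_of_env {p n : ℕ} [Fact p.Prime] {P : 𝒯} {ld : Lead p n} {S : SrcT p n P}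
    {O : OpAlg ld S.src} {B : 𝒯} {q : P ⟶ B} {TB : ∀ d, FS (S.sys B) (grR p n) d}
    (E : Env S O q TB) (hL : LiftsV S q) {Y : 𝒯}
    (hY : H395.PComplete p Y) {d : ℤ} {i m : ℕ} (hF : FExt d i m (S.sys Y)) {m₀ : ℤ}
    (hm : ∀ k, k < m₀ → ∀ f : (𝟙_ 𝒯)⟦k⟧ ⟶ Y, f = 0)
    (hf : ∀ k : ℤ, FinZp p ((𝟙_ 𝒯)⟦k⟧ ⟶ Y)) : T.Thick B Y :=
  thick_of_fext (specGens p n) E hL hY hF hm hf

end Vale.Agent.P221.V
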