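import Vale.Agent.P221.V.H520.Lifts
import Vale.Agent.P221.V.Ext
import Vale.Agent.P221.T.H520.Asm

/-!
# P221, part V: the main step and the end game for iterated extensions of filtered systems

* `SpecGens p n` : (V2), generators of an iterated extension;
* `main_stepV` : the main step;
* `Env.thick_of_fext` : a `p`-complete bounded below `Y` whose system is an iterated extension in
  degrees `≥ d`, with degreewise finitely generated homotopy, is in `Thick B`;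
* `exists_envV` : the environment of a form, with the lifting property `LiftsV`.
-/

open CategoryTheory MonoidalCategory MonObj Limits Pretriangulated
open Vale.Agent.P251.T Vale.Agent.P251.M Vale.Agent.P251.S
open Vale.Agent.P221.T

set_option linter.unusedSectionVars false

universe u

namespace Vale.Agent.P221.V

/-- (V2) generators -/
def SpecGens (p n : ℕ) [Fact p.Prime] : Prop :=
  ∀ (S : Src p n) (B : Sys S) (TB : ∀ d, FS B (grR p n) d) (g : B.A 0), Approx B TB g →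
    (∀ l, S.x l ∈ S.F 1 _) → (∀ l, S.θ 1 _ (S.x l) = 0) →
    ∀ (d : ℤ) (i m : ℕ) (Y : Sys S), FExt d (i + 1) m Y →
    ∃ (r : ℕ) (e : Fin r → ℤ) (α : ∀ j, Y.A (e j)), (∀ j, d ≤ e j) ∧
      (∀ j l, Y.act rfl (α j) (S.x l) = 0) ∧
      ∀ (X Z : Sys S) (ι : SysMap X Z 0) (b : SysMap Z Y 0) (j : ∀ i, SysMap B Z (e i))
        (c : ∀ i, SysMap B Y (e i)),
        (∀ (k : ℤ) (z : Z.A k), ∃! w : ∀ i, B.A (k - e i), z = ∑ i, (j i).f (by omega) (w i)) →
        (∀ (k : ℤ) (z : Z.Pi k), ∃! w : ∀ i, B.Pi (k - e i), z = ∑ i, (j i).g (by omega) (w i)) →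
        (∀ (i) (k k' : ℤ) (h : k + e i = k') (w : B.A k),
          b.f (add_zero k') ((j i).f h w) = (c i).f h w) →
        (∀ i, (c i).f (zero_add (e i)) g = α i) →
        (∀ (k : ℤ) (a : Z.A k), d ≤ k → (b.f (add_zero k) a = 0 ↔ ∃ c, ι.f (add_zero k) c = a)) →
        (∀ (k : ℤ) (a : Z.Pi k), d ≤ k → (b.g (add_zero k) a = 0 ↔ ∃ c, ι.g (add_zero k) c = a)) →
        (∀ (k : ℤ) (c : X.A k), d ≤ k →
          (∀ a : Y.A (k + 1), ∃ a', b.f (add_zero (k + 1)) a' = a) →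
          ι.f (add_zero k) c = 0 → c = 0) →
        (∀ (k : ℤ) (c : X.Pi k), d ≤ k →
          (∀ a : Y.Pi (k + 1), ∃ a', b.g (add_zero (k + 1)) a' = a) →
          ι.g (add_zero k) c = 0 → c = 0) →
        FExt d i m X ∧ (∀ (k : ℤ) (a : Y.A k), d ≤ k → ∃ a', b.f (add_zero k) a' = a) ∧
          (∀ (k : ℤ) (a : Y.Pi k), d ≤ k → ∃ a', b.g (add_zero k) a' = a)

/-- (V1) for initial segments -/
theorem h1V_of_fext {p n : ℕ} [Fact p.Prime] {S : Src p n} {d : ℤ} {i m : ℕ} {Y : Sys S}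
    (h : FExt d i m Y) (j : ℕ) : H1V Y {l | l < j} d := fun k hk ψ hψ =>
  FExt.solve (Or.inr ⟨j, rfl⟩) m Y h k hk ψ hψ

variable {𝒯 : Type u} [Category.{0} 𝒯] [Preadditive 𝒯] [HasZeroObject 𝒯]
    [HasShift 𝒯 ℤ] [∀ n : ℤ, (shiftFunctor 𝒯 n).Additive] [Pretriangulated 𝒯] [IsTriangulated 𝒯]
    [MonoidalCategory 𝒯] [SymmetricCategory 𝒯] [TensorTriangulated 𝒯] [MonoidalClosed 𝒯]
    [HasCoproducts.{0} 𝒯] [HasProducts.{0} 𝒯] [StableCat 𝒯]

variable {p n : ℕ} [Fact p.Prime] {P : 𝒯}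

section main

variable (S : SrcT p n P) {B : 𝒯} (q : P ⟶ B) (TB : ∀ d, FS (S.sys B) (grR p n) d)

/-- **The main step** for iterated extensions. -/
theorem main_stepV (hG : SpecGens p n) (hB : H395.PComplete p B) (hL : LiftsV S q)
    (hA : Approx (S.sys B) TB ((shiftFunctorZero 𝒯 ℤ).hom.app P ≫ q))
    (hB0 : ∀ (k : ℤ), k < 0 → ∀ f : (𝟙_ 𝒯)⟦k⟧ ⟶ B, f = 0)
    (hx : ∀ l, S.x l ∈ S.F 1 _) (hθ : ∀ l, S.θ 1 _ (S.x l) = 0) :
    ∀ (i m : ℕ) (Y : 𝒯) (d : ℤ), FExt d i m (S.sys Y) → H395.PComplete p Y →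
    ∃ Y' : 𝒯, (T.Thick B Y' → T.Thick B Y) ∧ H395.PComplete p Y' ∧
      (∀ k, d ≤ k + i → ∀ f : (𝟙_ 𝒯)⟦k⟧ ⟶ Y', f = 0) ∧
      (∀ k, k + i < d → Nonempty (((𝟙_ 𝒯)⟦k⟧ ⟶ Y') ≃+ ((𝟙_ 𝒯)⟦k + i⟧ ⟶ Y))) := by
  intro i m
  induction i with
  | zero =>
    intro Y d hF hYc
    refine ⟨Y, id, hYc, fun k hk f => ?_, fun k _ => ?_⟩
    · exact (FExt.zero m (S.sys Y) hF).2 k (by simpa using hk) f
    · have e : k + ((0 : ℕ) : ℤ) = k := by simp
      rw [e]
      exact ⟨AddEquiv.refl _⟩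
  | succ i ih =>
    intro Y d hF hYc
    obtain ⟨r, e, α, he, hα, hV2⟩ := hG S.src (S.sys B) TB _ hA hx hθ d i m (S.sys Y) hF
    choose b hb using fun j => hL Y hYc d (fun l => h1V_of_fext hF l) (e j) (α j) (he j) (hα j)
    let X : Fin r → 𝒯 := fun j => B⟦e j⟧
    let β : ∐ X ⟶ Y := Sigma.desc b
    obtain ⟨X₀, ι, h, hT⟩ := distinguished_cocone_triangle₁ β
    obtain ⟨hX₀, hsA, hsPi⟩ := hV2 (S.sys X₀) (S.sys (∐ X)) (S.map0 ι) (S.map0 β)
      (fun j => S.map (Sigma.ι X j)) (fun j => S.map (b j))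
      (fun k z => decomp e k z) (fun k z => decomp e k z)
      (fun j k k' hk w => by
        have h1 : (S.map0 β).f (add_zero k') ((S.map (Sigma.ι X j)).f hk w) =
            ((S.map (Sigma.ι X j)).f hk w : P⟦k'⟧ ⟶ ∐ X) ≫ β := S.map0_f β k' _
        rw [h1]
        exact gc_ι_desc e b j (by omega) w)
      (fun j => (gc_unit_shift (add_zero (e j)) q (b j)).trans (hb j))
      (fun k z _ => by
        have h1 : ((S.map0 β).f (add_zero k) z = 0) ↔ ((z : P⟦k⟧ ⟶ ∐ X) ≫ β = 0) := by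
          rw [← S.map0_f β k z]
          exact Iff.rfl
        refine h1.trans ((tri_exact hT _).trans (exists_congr fun c => ?_))
        rw [← S.map0_f ι k c]
        exact Iff.rfl)
      (fun k z _ => by
        have h1 : ((S.map0 β).g (add_zero k) z = 0) ↔
            ((z : (𝟙_ 𝒯)⟦k⟧ ⟶ ∐ X) ≫ β = 0) := by
          rw [← S.map0_g β k z]
          exact Iff.rfl
        refine h1.trans ((tri_exact hT _).trans (exists_congr fun c => ?_))
        rw [← S.map0_g ι k c]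
        exact Iff.rfl)
      (fun k c _ hs hc => tri_inj hT (c : P⟦k⟧ ⟶ X₀)
        (fun y => by
          obtain ⟨z, hz⟩ := hs y
          exact ⟨z, (S.map0_f β (k + 1) z).symm.trans hz⟩)
        ((S.map0_f ι k c).symm.trans hc))
      (fun k c _ hs hc => tri_inj hT (c : (𝟙_ 𝒯)⟦k⟧ ⟶ X₀)
        (fun y => by
          obtain ⟨z, hz⟩ := hs y
          exact ⟨z, (S.map0_g β (k + 1) z).symm.trans hz⟩)
        ((S.map0_g ι k c).symm.trans hc))
    have hZc : H395.PComplete p (∐ X) := pComplete_coprod fun j => hB.shift (e j)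
    have hX₀c : H395.PComplete p X₀ := H395.PComplete.ext₁ _ hT hZc hYc
    have hZT : T.Thick B (∐ X) := T.Thick.coprod X fun j => T.Thick.shift (e j) T.Thick.base
    obtain ⟨Y', hY', hYc', h0', hiso'⟩ := ih X₀ d hX₀ hX₀c
    refine ⟨Y', fun hY'T => T.Thick.cof hT (hY' hY'T) hZT, hYc', fun k hk g => ?_, fun k hk => ?_⟩
    · by_cases hki : d ≤ k + i
      · exact h0' k hki g
      · obtain ⟨φ⟩ := hiso' k (by omega)
        rw [← φ.map_eq_zero_iff]
        refine tri_inj hT (φ g) (fun y => ?_) ?_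
        · obtain ⟨z, hz⟩ := hsPi (k + i + 1) y (by push_cast at hk; omega)
          exact ⟨z, (S.map0_g β (k + i + 1) z).symm.trans hz⟩
        · exact pi_shift_zero hB0 e (fun j => by have := he j; omega) _
    · obtain ⟨φ⟩ := hiso' k (by push_cast at hk; omega)
      obtain ⟨ψ⟩ := tri_equiv (A := 𝟙_ 𝒯) (k := k + i) hT
        (fun z => pi_shift_zero hB0 e (fun j => by have := he j; push_cast at hk; omega) z)
        (fun z => pi_shift_zero hB0 e (fun j => by have := he j; push_cast at hk; omega) z)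
      have e1 : k + ((i + 1 : ℕ) : ℤ) = k + i + 1 := by push_cast; ring
      rw [e1]
      exact ⟨φ.trans ψ⟩

end main

section

variable {ld : Lead p n} {S : SrcT p n P} {O : OpAlg ld S.src} {B : 𝒯} {q : P ⟶ B}
  {TB : ∀ d, FS (S.sys B) (grR p n) d}

/-- **The end game** for iterated extensions. -/
theorem thick_of_fext (hG : SpecGens p n) (E : Env S O q TB) (hL : LiftsV S q) {Y : 𝒯}
    (hY : H395.PComplete p Y) {d : ℤ} {i m : ℕ} (hF : FExt d i m (S.sys Y)) {m₀ : ℤ}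
    (hm : ∀ k, k < m₀ → ∀ f : (𝟙_ 𝒯)⟦k⟧ ⟶ Y, f = 0)
    (hf : ∀ k : ℤ, FinZp p ((𝟙_ 𝒯)⟦k⟧ ⟶ Y)) : T.Thick B Y := by
  obtain ⟨Y', hY', hc', h0, hiso⟩ := main_stepV S q TB hG E.complete hL E.approx E.conn
    (fun l => O.x_mem l) (fun l => O.θ_x l) i m Y d hF hY
  refine hY' (E.low (d - m₀).toNat Y' (m₀ - i) (d - i) (by omega) hc'
    (fun k hk => h0 k (by omega)) (fun k hk f => ?_) fun k => ?_)
  · by_cases h : d ≤ k + i
    · exact h0 k h f
    · obtain ⟨φ⟩ := hiso k (by omega)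
      rw [← φ.map_eq_zero_iff]
      exact hm (k + i) (by omega) _
  · by_cases h : d ≤ k + i
    · exact FinZp.of_zero (h0 k h)
    · obtain ⟨φ⟩ := hiso k (by omega)
      exact FinZp.of_equiv φ (hf (k + i))

end

/-- the environment of a form, with both lifting properties -/
theorem exists_envV {R W : 𝒯} [MonObj R] [IsCommMonObj R] (hsrc : SpecSrc p n 𝒯)
    (b : BPS p R P W) (hTop : b.Top) {B : 𝒯} (φ : FormD b n B)
    (hPar : ∀ K : 𝒯, H395.PComplete p K →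
      (∀ (j : ℤ) (f : (𝟙_ 𝒯)⟦2 * j⟧ ⟶ K), f = 0) → ∀ f : P ⟶ K, f = 0) :
    ∃ (ld : Lead p n) (S : SrcT p n P) (O : OpAlg ld S.src)
      (TB : ∀ d, FS (S.sys B) (grR p n) d), Env S O φ.Q TB ∧ LiftsV S φ.Q ∧
      ∀ (Y : 𝒯) (M : ModStr R Y) (hY : H395.PComplete p Y),
        letI : Module (KK p) (PiM Y) := b.mdl M hY
        Nonempty (Coor O (S.sys Y) (PiM Y) (PiM.gr Y)) := by
  obtain ⟨ld⟩ := H136.specLead p n
  obtain ⟨S, O, hu, hSx, hχ, hco⟩ := hsrc R P W b ld φ.x φ.x_deg φ.x_mod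
  obtain ⟨TB, hTB⟩ : ∃ TB : ∀ d, FS (S.sys B) (grR p n) d,
      Approx (S.sys B) TB ((shiftFunctorZero 𝒯 ℤ).hom.app P ≫ φ.Q) := by
    let _ : Module (KK p) (PiM B) := b.mdl φ.MB φ.hB
    obtain ⟨co, he, hc⟩ := hco B φ.MB φ.hB
    refine H746.specSB p n ld S.src O (S.sys B) (PiM B) (PiM.gr B) co
      (PiM.of B 0 (zr 𝒯 ≫ η[R] ≫ φ.q)) ⟨_, rfl⟩ ?_ _ fun E => ?_
    · rintro k _ ⟨z, rfl⟩
      exact φ.free k z
    · exact (hc 0 _ E).trans (φ.coord E rfl)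
  refine ⟨ld, S, O, TB, ⟨φ.hB, φ.pi_neg, H903.lifts_of_form φ hSx hPar, hTB, ?_, ?_⟩,
    liftsV_of_form φ hSx hPar, fun Y M hY => ?_⟩
  · rw [hu]
    exact hTop
  · intro Y m hY _ _ h a γ
    exact chi_of_src b O hu hχ hY h a γ
  · obtain ⟨co, -⟩ := hco Y M hY
    exact ⟨co⟩

end Vale.Agent.P221.V
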