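import Vale.Agent.P221.H903.R3
import Vale.Agent.P221.V.Def

/-!
# P221, part V: the lifting property from the vanishing of the first Koszul cohomology

* `H1V Y J d` : compatible families of elements of `Y` in degrees `≥ d` are coboundaries;
* `LiftsV S q` : the lifting property of `q : P ⟶ B` for all `p`-complete `Y` with `H1V` for all
  initial segments;
* `liftsV_of_form` : it holds for forms.
-/

open CategoryTheory MonoidalCategory Limits Pretriangulated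
open Vale.Agent.P251.T Vale.Agent.P251.M Vale.Agent.P251.S
open Vale.Agent.P221.T Vale.Agent.P221.H903

set_option linter.unusedSectionVars false

universe u

namespace Vale.Agent.P221.V

/-- compatible families in degrees `≥ d` are coboundaries -/
def H1V {p n : ℕ} {S : Src p n} (Y : Sys S) (J : Set ℕ) (d : ℤ) : Prop :=
  ∀ (k : ℤ), d ≤ k → ∀ ψ : ∀ l, Y.A (k + dd p n l),
    (∀ i ∈ J, ∀ l ∈ J, ∀ (k' : ℤ) (h : k + dd p n l + dd p n i = k')
      (h' : k + dd p n i + dd p n l = k'), Y.act h (ψ l) (S.x i) = Y.act h' (ψ i) (S.x l)) →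
    ∃ φ : Y.A k, ∀ l ∈ J, Y.act rfl φ (S.x l) = ψ l

variable {𝒯 : Type u} [Category.{0} 𝒯] [Preadditive 𝒯] [HasZeroObject 𝒯]
    [HasShift 𝒯 ℤ] [∀ n : ℤ, (shiftFunctor 𝒯 n).Additive] [Pretriangulated 𝒯] [IsTriangulated 𝒯]
    [MonoidalCategory 𝒯] [SymmetricCategory 𝒯] [TensorTriangulated 𝒯] [MonoidalClosed 𝒯]
    [HasCoproducts.{0} 𝒯] [HasProducts.{0} 𝒯] [StableCat 𝒯]

/-- the lifting property -/
def LiftsV {p n : ℕ} {P : 𝒯} (S : SrcT p n P) {B : 𝒯} (q : P ⟶ B) : Prop :=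
  ∀ (Y : 𝒯), H395.PComplete p Y → ∀ (d : ℤ), (∀ m : ℕ, H1V (S.sys Y) {l | l < m} d) →
    ∀ (k : ℤ) (a : P⟦k⟧ ⟶ Y), d ≤ k → (∀ l, (S.sys Y).act rfl a (S.x l) = 0) →
      ∃ b : B⟦k⟧ ⟶ Y, q⟦k⟧' ≫ b = a

variable {p n : ℕ} {C P B : 𝒯}

/-- the lifting property of `q : P ⟶ B` -/
theorem liftsV (hC : ∃ (i : 𝟙_ 𝒯 ⟶ C) (δ : C ⟶ (𝟙_ 𝒯)⟦(1 : ℤ)⟧),
      Triangle.mk ((p : ℤ) • 𝟙 (𝟙_ 𝒯)) i δ ∈ distTriang 𝒯) (S : SrcT p n P) {q : P ⟶ B}
    (H : KHyp p C S.x q) : LiftsV S q := by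
  intro Y hY d hV k a hk ha
  let ε : (Y⟦-k⟧)⟦k⟧ ≅ Y := (shiftFunctorCompIsoId 𝒯 (-k) k (by ring)).app Y
  have εinj : ∀ {A : 𝒯} {e e' : ℤ} (h : k + e = e') {w w' : A⟦e⟧ ⟶ Y⟦-k⟧},
      gc h w ε.hom = gc h w' ε.hom → w = w' := by
    intro A e e' h w w' hw
    rw [gc_eq, gc_eq h w'] at hw
    exact gc_inj h ((cancel_mono ε.hom).1 hw)
  have εsurj : ∀ {A : 𝒯} {e e' : ℤ} (h : k + e = e') (z : A⟦e'⟧ ⟶ Y),
      ∃ w : A⟦e⟧ ⟶ Y⟦-k⟧, gc h w ε.hom = z := by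
    intro A e e' h z
    obtain ⟨w, hw⟩ := gc_surj h (z ≫ ε.inv)
    refine ⟨w, ?_⟩
    rw [gc_eq, hw, Category.assoc, Iso.inv_hom_id, Category.comp_id]
  obtain ⟨a', ha'⟩ := (shiftFunctor 𝒯 k).map_surjective (a ≫ ε.inv)
  have ha1 : a'⟦k⟧' ≫ ε.hom = a := by
    rw [ha', Category.assoc, Iso.inv_hom_id, Category.comp_id]
  have hdd : ∀ l, 0 ≤ dd p n l := H.nonneg
  obtain ⟨β, hβ⟩ := H.extend hC (hY.shift (-k)) (fun m c hc ψ hψ => by
    obtain ⟨φ, hφ⟩ := hV m (k + c) (by omega)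
      (fun l => gc (by ring : k + (c + dd p n l) = k + c + dd p n l) (ψ l) ε.hom)
      (fun i hi l hl k' h h' => by
        change gc h (S.x i) (gc (show k + (c + dd p n l) = k + c + dd p n l by ring) (ψ l) ε.hom) =
          gc h' (S.x l) (gc (show k + (c + dd p n i) = k + c + dd p n i by ring) (ψ i) ε.hom)
        rw [gc_assoc (S.x i) (ψ l) ε.hom _ h (show c + dd p n l + dd p n i = k' - k by omega)
            (show k + (k' - k) = k' by ring),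
          gc_assoc (S.x l) (ψ i) ε.hom _ h' (show c + dd p n i + dd p n l = k' - k by omega)
            (show k + (k' - k) = k' by ring), hψ i hi l hl (k' - k) (by omega) (by omega)])
    obtain ⟨φ', hφ'⟩ := εsurj (show k + c = k + c from rfl) φ
    refine ⟨φ', fun l hl => εinj (show k + (c + dd p n l) = k + c + dd p n l by ring) ?_⟩
    have h1 : gc rfl (S.x l) φ = gc (show k + (c + dd p n l) = k + c + dd p n l by ring) (ψ l) ε.hom :=
      hφ l hl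
    rw [← h1, ← hφ']
    exact (gc_assoc (S.x l) φ' ε.hom rfl rfl rfl _).symm) a' (fun l => by
    refine εinj (show k + dd p n l = k + dd p n l from rfl) ?_
    rw [gc_map, ha1, gc_zero_left]
    exact ha l)
  refine ⟨β⟦k⟧' ≫ ε.hom, ?_⟩
  rw [← Category.assoc, ← Functor.map_comp, hβ, ha1]

/-- The lifting property of the quotient map of a form. -/
theorem liftsV_of_form [Fact p.Prime] {R W : 𝒯} [MonObj R] [IsCommMonObj R] {b : BPS p R P W}
    (φ : FormD b n B) {S : SrcT p n P}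
    (hS : ∀ l, b.c⟦dd p n l⟧' ≫ S.x l = hat b.MP (b.cls (dd p n l) (φ.x l)))
    (hPar : ∀ K : 𝒯, H395.PComplete p K →
      (∀ (j : ℤ) (f : (𝟙_ 𝒯)⟦2 * j⟧ ⟶ K), f = 0) → ∀ f : P ⟶ K, f = 0) : LiftsV S φ.Q := by
  obtain ⟨C, i, δ, hC⟩ := distinguished_cocone_triangle ((p : ℤ) • 𝟙 (𝟙_ 𝒯))
  exact liftsV ⟨i, δ, hC⟩ S (khyp φ hS hC hPar)

end Vale.Agent.P221.V
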