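import Vale.Agent.P221.V.H520.Lifts
import Vale.Agent.P221.T.H520.T2

/-!
# P221, part V: the main step for iterated extensions of filtered systems

* `gcE h : (A⟦k'⟧ ⟶ Q) ≃+ (A⟦k⟧ ⟶ Q⟦e⟧)`;
* `comps e` : the map of systems from the system of `∐ B⟦e j⟧` to `sumSys (S.sys B) e`;
* `main_stepV`.
-/

open CategoryTheory MonoidalCategory Limits Pretriangulated
open Vale.Agent.P251.T Vale.Agent.P251.M Vale.Agent.P251.S
open Vale.Agent.P221.T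

set_option linter.unusedSectionVars false
set_option linter.unusedVariables false

universe u

namespace Vale.Agent.P221.V

variable {𝒯 : Type u} [Category.{0} 𝒯] [Preadditive 𝒯] [HasZeroObject 𝒯]
    [HasShift 𝒯 ℤ] [∀ n : ℤ, (shiftFunctor 𝒯 n).Additive] [Pretriangulated 𝒯] [IsTriangulated 𝒯]
    [MonoidalCategory 𝒯] [SymmetricCategory 𝒯] [TensorTriangulated 𝒯] [MonoidalClosed 𝒯]
    [HasCoproducts.{0} 𝒯] [HasProducts.{0} 𝒯] [StableCat 𝒯]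

/-- `(A⟦k'⟧ ⟶ Q) ≃+ (A⟦k⟧ ⟶ Q⟦e⟧)` -/
noncomputable def gcE {A Q : 𝒯} {e k k' : ℤ} (h : e + k' = k) : (A⟦k'⟧ ⟶ Q) ≃+ (A⟦k⟧ ⟶ Q⟦e⟧) :=
  AddEquiv.ofBijective (AddMonoidHom.mk' (fun w => gc h w (𝟙 (Q⟦e⟧))) fun w w' =>
    gc_add_left h w w' _) ⟨fun _ _ hw => gc_inj h hw, fun z => gc_surj h z⟩

theorem gcE_apply {A Q : 𝒯} {e k k' : ℤ} (h : e + k' = k) (w : A⟦k'⟧ ⟶ Q) :
    gcE h w = gc h w (𝟙 (Q⟦e⟧)) := rfl

theorem gcE_symm {A Q : 𝒯} {e k k' : ℤ} (h : e + k' = k) (z : A⟦k⟧ ⟶ Q⟦e⟧) :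
    gc h ((gcE h).symm z) (𝟙 (Q⟦e⟧)) = z := (gcE h).apply_symm_apply z

theorem gcE_symm_eq {A Q : 𝒯} {e k k' : ℤ} (h : e + k' = k) (z : A⟦k⟧ ⟶ Q⟦e⟧)
    (w : A⟦k'⟧ ⟶ Q) (hw : gc h w (𝟙 (Q⟦e⟧)) = z) : (gcE h).symm z = w :=
  (gcE h).symm_apply_eq.2 hw.symm

variable {p n : ℕ} {P : 𝒯}

section comps

variable {B : 𝒯} {r : ℕ} (e : Fin r → ℤ)

/-- the components of a map into a finite sum of suspensions -/
noncomputable def cmpo {A : 𝒯} {k k' : ℤ} (h : k + 0 = k') :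
    (A⟦k⟧ ⟶ ∐ fun j => B⟦e j⟧) →+ ∀ j, (A⟦k' - e j⟧ ⟶ B) :=
  AddMonoidHom.mk' (fun z j =>
    (gcE (show e j + (k' - e j) = k by omega)).symm (z ≫ proj (fun j => B⟦e j⟧) j))
    fun z z' => funext fun j => by
      rw [Preadditive.add_comp, map_add]
      rfl

theorem cmpo_spec {A : 𝒯} {k k' : ℤ} (h : k + 0 = k') (z : A⟦k⟧ ⟶ ∐ fun j => B⟦e j⟧) (j : Fin r) :
    gc (show e j + (k' - e j) = k by omega) (cmpo e h z j) (𝟙 (B⟦e j⟧)) =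
      z ≫ proj (fun j => B⟦e j⟧) j := gcE_symm _ _

theorem cmpo_eq {A : 𝒯} {k k' : ℤ} (h : k + 0 = k') (z : A⟦k⟧ ⟶ ∐ fun j => B⟦e j⟧) (j : Fin r)
    (w : A⟦k' - e j⟧ ⟶ B) (hw : gc (show e j + (k' - e j) = k by omega) w (𝟙 (B⟦e j⟧)) =
      z ≫ proj (fun j => B⟦e j⟧) j) : cmpo e h z j = w := gcE_symm_eq _ _ _ hw

theorem cmpo_comp {A A' : 𝒯} {k k' : ℤ} (h : k + 0 = k') (u : A' ⟶ A)
    (z : A⟦k⟧ ⟶ ∐ fun j => B⟦e j⟧) (j : Fin r) :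
    cmpo e h (u⟦k⟧' ≫ z) j = u⟦k' - e j⟧' ≫ cmpo e h z j := by
  refine cmpo_eq e h _ j _ ?_
  rw [← comp_gc, cmpo_spec, Category.assoc]

theorem cmpo_gc {A A' : 𝒯} {k m l k' l' : ℤ} (h : k + m = l) (h₁ : k + 0 = k') (h₃ : l + 0 = l')
    (γ : A'⟦m⟧ ⟶ A) (z : A⟦k⟧ ⟶ ∐ fun j => B⟦e j⟧) (j : Fin r) :
    cmpo e h₃ (gc h γ z) j = gc (show k' - e j + m = l' - e j by omega) γ (cmpo e h₁ z j) := by
  refine cmpo_eq e h₃ _ j _ ?_
  rw [← gc_assoc γ (cmpo e h₁ z j) (𝟙 (B⟦e j⟧)) (show e j + (k' - e j) = k by omega) h,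
    cmpo_spec, gc_comp]

variable (S : SrcT p n P)

/-- the components -/
noncomputable def comps : SysMap (S.sys (∐ fun j => B⟦e j⟧)) (sumSys (S.sys B) e) 0 where
  f {k k'} h := (cmpo e h : (P⟦k⟧ ⟶ ∐ fun j => B⟦e j⟧) →+ _)
  g {k k'} h := (cmpo e h : ((𝟙_ 𝒯)⟦k⟧ ⟶ ∐ fun j => B⟦e j⟧) →+ _)
  ev {k k'} h a := funext fun j => (cmpo_comp e h S.u a j).symm
  act {k m l k' l'} h h₁ h₂ h₃ a γ := funext fun j => cmpo_gc e h h₁ h₃ γ a j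

variable {e}

/-- sums of components -/
theorem sum_eq {A Y : 𝒯} {k : ℤ} (z : A⟦k⟧ ⟶ ∐ fun j => B⟦e j⟧) (w : ∀ j, A⟦k - e j⟧ ⟶ B)
    (hw : ∀ j, gc (show e j + (k - e j) = k by omega) (w j) (𝟙 (B⟦e j⟧)) =
      z ≫ proj (fun j => B⟦e j⟧) j) (b : ∀ j, B⟦e j⟧ ⟶ Y) :
    z ≫ Sigma.desc b = ∑ j, gc (show e j + (k - e j) = k by omega) (w j) (b j) := by
  obtain ⟨w', hw', -⟩ := decomp e k z
  have h1 : z = ∑ i, gc (by omega : e i + (k - e i) = k) (w' i)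
      (Sigma.ι (fun i => B⟦e i⟧) i) := hw'
  have h2 : w' = w := by
    funext j
    apply gc_inj (show e j + (k - e j) = k by omega)
    rw [hw j, h1, Preadditive.sum_comp, Finset.sum_eq_single_of_mem j (Finset.mem_univ _)]
    · rw [← gc_comp, ι_proj_self]
    · intro i _ hij
      rw [← gc_comp, ι_proj_of_ne _ hij, gc_zero_right]
  rw [h1, Preadditive.sum_comp, h2]
  exact Finset.sum_congr rfl fun j _ => gc_ι_desc e b j _ (w j)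

/-- elements with given components -/
theorem exists_comps {A : 𝒯} {k : ℤ} (w : ∀ j, A⟦k - e j⟧ ⟶ B) :
    ∃ z : A⟦k⟧ ⟶ ∐ fun j => B⟦e j⟧, ∀ j, gc (show e j + (k - e j) = k by omega) (w j)
      (𝟙 (B⟦e j⟧)) = z ≫ proj (fun j => B⟦e j⟧) j := by
  classical
  refine ⟨∑ i, gc (by omega : e i + (k - e i) = k) (w i) (Sigma.ι (fun i => B⟦e i⟧) i),
    fun j => ?_⟩
  rw [Preadditive.sum_comp, Finset.sum_eq_single_of_mem j (Finset.mem_univ _)]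
  · rw [← gc_comp, ι_proj_self]
  · intro i _ hij
    rw [← gc_comp, ι_proj_of_ne _ hij, gc_zero_right]

/-- an element is determined by its components -/
theorem eq_of_comps {A : 𝒯} {k : ℤ} {z : A⟦k⟧ ⟶ ∐ fun j => B⟦e j⟧}
    (h : ∀ j, z ≫ proj (fun j => B⟦e j⟧) j = 0) : z = 0 := by
  obtain ⟨g, hg⟩ := finite_sum (fun i => B⟦e i⟧) z
  rw [hg]
  refine Finset.sum_eq_zero fun i _ => ?_
  have h1 := h i
  rw [hg, Preadditive.sum_comp, Finset.sum_eq_single_of_mem i (Finset.mem_univ _)] at h1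
  · rw [Category.assoc, ι_proj_self, Category.comp_id] at h1
    rw [h1, zero_comp]
  · intro j _ hij
    rw [Category.assoc, ι_proj_of_ne _ hij, comp_zero]

end comps

/-! ### the main step -/

/-- (V2) -/
def SpecV2 (p n : ℕ) [Fact p.Prime] : Prop :=
  ∀ (S : Src p n) (B : Sys S) (TB : ∀ d, FS B (grR p n) d) (g : B.A 0), Approx B TB g →
    (∀ l, S.x l ∈ S.F 1 _) → (∀ l, S.θ 1 _ (S.x l) = 0) →
    ∀ (d : ℤ) (i m : ℕ) (Y : Sys S), FExt d (i + 1) m Y →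
      ∃ (r : ℕ) (e : Fin r → ℤ) (α : ∀ j, Y.A (e j)), (∀ j, d ≤ e j) ∧
        (∀ j l, Y.act rfl (α j) (S.x l) = 0) ∧
        ∀ c : ∀ j, PMap d B Y (e j), (∀ j, (c j).f (zero_add (e j)) g = α j) →
          (sumMap c).Onto ∧ FExt d i m (sumMap c).ker.sys

/-- (V3) -/
def SpecV3 (p n : ℕ) [Fact p.Prime] : Prop :=
  ∀ (S : Src p n) (d : ℤ) (i m : ℕ) (X X' : Sys S) (φ : PMap d X X' 0), φ.Inj → φ.Onto →
    FExt d i m X' → FExt d i m X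

/-- (V1) -/
def SpecV1 (p n : ℕ) [Fact p.Prime] : Prop :=
  ∀ (S : Src p n) (d : ℤ) (i m : ℕ) (Y : Sys S), FExt d i m Y → ∀ j : ℕ, H1V Y {l | l < j} d

/-- (V4) -/
def SpecV4 (p n : ℕ) [Fact p.Prime] : Prop :=
  ∀ (S : Src p n) (d : ℤ) (m : ℕ) (Y : Sys S), FExt d 0 m Y → ∀ (k : ℤ), d ≤ k →
    ∀ y : Y.Pi k, y = 0

section main

variable [Fact p.Prime] (S : SrcT p n P) {B : 𝒯} (q : P ⟶ B)
  (TB : ∀ d, FS (S.sys B) (grR p n) d)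

section ker

variable {S} {Y X₀ : 𝒯} {r : ℕ} {e : Fin r → ℤ} {d : ℤ} (b : ∀ j, B⟦e j⟧ ⟶ Y)
  {ι : X₀ ⟶ ∐ fun j => B⟦e j⟧} {h : Y ⟶ X₀⟦(1 : ℤ)⟧}
  (hT : Triangle.mk ι (Sigma.desc b) h ∈ distTriang 𝒯)

/-- the maps of systems -/
noncomputable def cmap (S : SrcT p n P) (d : ℤ) (b : ∀ j, B⟦e j⟧ ⟶ Y) (j : Fin r) :
    PMap d (S.sys B) (S.sys Y) (e j) := PMap.ofSys d (S.map (b j))

theorem sum_cmpo (b : ∀ j, B⟦e j⟧ ⟶ Y) {k : ℤ} (z : P⟦k⟧ ⟶ ∐ fun j => B⟦e j⟧) :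
    (sumMap (cmap S d b)).f (add_zero k) ((comps e S).f (add_zero k) z) = z ≫ Sigma.desc b := by
  exact (sum_eq z (cmpo e (add_zero k) z) (fun j => cmpo_spec e (add_zero k) z j) b).symm

theorem sum_cmpo' (b : ∀ j, B⟦e j⟧ ⟶ Y) {k : ℤ} (z : (𝟙_ 𝒯)⟦k⟧ ⟶ ∐ fun j => B⟦e j⟧) :
    (sumMap (cmap S d b)).g (add_zero k) ((comps e S).g (add_zero k) z) = z ≫ Sigma.desc b := by
  exact (sum_eq z (cmpo e (add_zero k) z) (fun j => cmpo_spec e (add_zero k) z j) b).symm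

include hT

theorem ker_zero {k : ℤ} (a : P⟦k⟧ ⟶ X₀) :
    (sumMap (cmap S d b)).f (add_zero k) ((comps e S).f (add_zero k) ((S.map0 ι).f (add_zero k) a)) =
      0 := by
  have h1 : ((S.map0 ι).f (add_zero k) a : P⟦k⟧ ⟶ ∐ fun j => B⟦e j⟧) = a ≫ ι := S.map0_f ι k a
  have h2 := sum_cmpo (S := S) (d := d) b ((S.map0 ι).f (add_zero k) a)
  refine h2.trans ?_
  rw [h1]
  exact (tri_exact hT _).2 ⟨a, rfl⟩

theorem ker_zero' {k : ℤ} (a : (𝟙_ 𝒯)⟦k⟧ ⟶ X₀) :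
    (sumMap (cmap S d b)).g (add_zero k) ((comps e S).g (add_zero k) ((S.map0 ι).g (add_zero k) a)) =
      0 := by
  have h1 : ((S.map0 ι).g (add_zero k) a : (𝟙_ 𝒯)⟦k⟧ ⟶ ∐ fun j => B⟦e j⟧) = a ≫ ι :=
    S.map0_g ι k a
  have h2 := sum_cmpo' (S := S) (d := d) b ((S.map0 ι).g (add_zero k) a)
  refine h2.trans ?_
  rw [h1]
  exact (tri_exact hT _).2 ⟨a, rfl⟩

theorem kmap_mem {k k' : ℤ} (h : k + 0 = k') (_ : d ≤ k') (a : (S.sys X₀).A k) :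
    ((PMap.ofSys d (S.map0 ι)).comp (PMap.ofSys d (comps e S))).f h a ∈
      (sumMap (cmap S d b)).ker.A k' := by
  obtain rfl : k = k' := by omega
  exact ker_zero b hT a

theorem kmap_mem' {k k' : ℤ} (h : k + 0 = k') (_ : d ≤ k') (a : (S.sys X₀).Pi k) :
    ((PMap.ofSys d (S.map0 ι)).comp (PMap.ofSys d (comps e S))).g h a ∈
      (sumMap (cmap S d b)).ker.Pi k' := by
  obtain rfl : k = k' := by omega
  exact ker_zero' b hT a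

/-- the map to the kernel -/
noncomputable def kmap : PMap d (S.sys X₀) (sumMap (cmap S d b)).ker.sys 0 :=
  (sumMap (cmap S d b)).ker.cod
    ((PMap.ofSys d (S.map0 ι)).comp (PMap.ofSys d (comps e S))) (kmap_mem b hT) (kmap_mem' b hT)

theorem kmap_f {k : ℤ} (hk : d ≤ k) (a : P⟦k⟧ ⟶ X₀) :
    (sumMap (cmap S d b)).ker.vA k ((kmap b hT).f (add_zero k) a) =
      (comps e S).f (add_zero k) (a ≫ ι) := by
  have h1 : ((S.map0 ι).f (add_zero k) a : P⟦k⟧ ⟶ ∐ fun j => B⟦e j⟧) = a ≫ ι := S.map0_f ι k a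
  refine (PSub.vA_cod (B := S.sys X₀) _ _ (kmap_mem b hT) (kmap_mem' b hT) (add_zero k) hk a).trans ?_
  change (comps e S).f (add_zero k) ((S.map0 ι).f (add_zero k) a) = _
  rw [h1]

theorem kmap_g {k : ℤ} (hk : d ≤ k) (a : (𝟙_ 𝒯)⟦k⟧ ⟶ X₀) :
    (sumMap (cmap S d b)).ker.vP k ((kmap b hT).g (add_zero k) a) =
      (comps e S).g (add_zero k) (a ≫ ι) := by
  have h1 : ((S.map0 ι).g (add_zero k) a : (𝟙_ 𝒯)⟦k⟧ ⟶ ∐ fun j => B⟦e j⟧) = a ≫ ι :=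
    S.map0_g ι k a
  refine (PSub.vP_cod (B := S.sys X₀) _ _ (kmap_mem b hT) (kmap_mem' b hT) (add_zero k) hk a).trans ?_
  change (comps e S).g (add_zero k) ((S.map0 ι).g (add_zero k) a) = _
  rw [h1]

omit hT in
theorem desc_surj (ho : (sumMap (cmap S d b)).Onto) {k : ℤ} (hk : d ≤ k) (y : P⟦k⟧ ⟶ Y) :
    ∃ z : P⟦k⟧ ⟶ ∐ fun j => B⟦e j⟧, z ≫ Sigma.desc b = y := by
  obtain ⟨w, hw⟩ := ho.1 k hk y
  obtain ⟨z, hz⟩ := exists_comps (e := e) w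
  exact ⟨z, (sum_eq z w hz b).trans hw⟩

omit hT in
theorem desc_surj' (ho : (sumMap (cmap S d b)).Onto) {k : ℤ} (hk : d ≤ k)
    (y : (𝟙_ 𝒯)⟦k⟧ ⟶ Y) : ∃ z : (𝟙_ 𝒯)⟦k⟧ ⟶ ∐ fun j => B⟦e j⟧, z ≫ Sigma.desc b = y := by
  obtain ⟨w, hw⟩ := ho.2 k hk y
  obtain ⟨z, hz⟩ := exists_comps (e := e) w
  exact ⟨z, (sum_eq z w hz b).trans hw⟩

theorem kmap_inj (ho : (sumMap (cmap S d b)).Onto) : (kmap (S := S) (d := d) b hT).Inj := by
  refine ⟨fun k hk a ha => ?_, fun k hk a ha => ?_⟩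
  · refine tri_inj hT (a : P⟦k⟧ ⟶ X₀) (fun y => desc_surj b ho (by omega) y) ?_
    have h1 := kmap_f (S := S) b hT hk a
    rw [ha, map_zero] at h1
    refine eq_of_comps fun j => ?_
    have h2 : cmpo e (add_zero k) ((a : P⟦k⟧ ⟶ X₀) ≫ ι) j = 0 := congrFun h1.symm j
    rw [← cmpo_spec e (add_zero k) _ j, h2, gc_zero_left]
  · refine tri_inj hT (a : (𝟙_ 𝒯)⟦k⟧ ⟶ X₀) (fun y => desc_surj' b ho (by omega) y) ?_
    have h1 := kmap_g (S := S) b hT hk a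
    rw [ha, map_zero] at h1
    refine eq_of_comps fun j => ?_
    have h2 : cmpo e (add_zero k) ((a : (𝟙_ 𝒯)⟦k⟧ ⟶ X₀) ≫ ι) j = 0 := congrFun h1.symm j
    rw [← cmpo_spec e (add_zero k) _ j, h2, gc_zero_left]

theorem kmap_onto : (kmap (S := S) (d := d) b hT).Onto := by
  refine ⟨fun k hk w => ?_, fun k hk w => ?_⟩
  · have hw := (sumMap (cmap S d b)).ker.vA_mem hk w
    rw [PMap.mem_ker] at hw
    obtain ⟨z, hz⟩ := exists_comps (e := e) ((sumMap (cmap S d b)).ker.vA k w)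
    obtain ⟨a, ha⟩ := (tri_exact hT z).1 ((sum_eq z _ hz b).trans hw)
    refine ⟨a, PSub.vA_inj _ ?_⟩
    rw [kmap_f b hT hk, ha]
    exact funext fun j => cmpo_eq e (add_zero k) z j _ (hz j)
  · have hw := (sumMap (cmap S d b)).ker.vP_mem hk w
    rw [PMap.mem_kerP] at hw
    obtain ⟨z, hz⟩ := exists_comps (e := e) ((sumMap (cmap S d b)).ker.vP k w)
    obtain ⟨a, ha⟩ := (tri_exact hT z).1 ((sum_eq z _ hz b).trans hw)
    refine ⟨a, PSub.vP_inj _ ?_⟩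
    rw [kmap_g b hT hk, ha]
    exact funext fun j => cmpo_eq e (add_zero k) z j _ (hz j)

end ker

/-- **The main step** for iterated extensions. -/
theorem main_stepV (V1 : SpecV1 p n) (V2 : SpecV2 p n) (V3 : SpecV3 p n) (V4 : SpecV4 p n)
    (hB : H395.PComplete p B) (hL : LiftsV S q)
    (hA : Approx (S.sys B) TB ((shiftFunctorZero 𝒯 ℤ).hom.app P ≫ q))
    (hB0 : ∀ (k : ℤ), k < 0 → ∀ f : (𝟙_ 𝒯)⟦k⟧ ⟶ B, f = 0)
    (hx : ∀ l, S.x l ∈ S.F 1 _) (hθ : ∀ l, S.θ 1 _ (S.x l) = 0) :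
    ∀ (i m : ℕ) (Y : 𝒯) (d : ℤ), FExt d i m (S.sys Y) → H395.PComplete p Y →
    ∃ Y' : 𝒯, (T.Thick B Y' → T.Thick B Y) ∧ H395.PComplete p Y' ∧
      (∀ k, d ≤ k + i → ∀ f : (𝟙_ 𝒯)⟦k⟧ ⟶ Y', f = 0) ∧
      (∀ k, k + i < d → Nonempty (((𝟙_ 𝒯)⟦k⟧ ⟶ Y') ≃+ ((𝟙_ 𝒯)⟦k + i⟧ ⟶ Y))) := by
  intro i m
  induction i with
  | zero =>
    intro Y d hF hYc
    refine ⟨Y, id, hYc, fun k hk f => ?_, fun k _ => ?_⟩
    · exact V4 S.src d m (S.sys Y) hF k (by simpa using hk) f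
    · have e : k + ((0 : ℕ) : ℤ) = k := by simp
      rw [e]
      exact ⟨AddEquiv.refl _⟩
  | succ i ih =>
    intro Y d hF hYc
    obtain ⟨r, e, α, he, hα, hV2⟩ := V2 S.src (S.sys B) TB _ hA hx hθ d i m (S.sys Y) hF
    choose b hb using fun j => hL Y hYc d (fun l => V1 S.src d (i + 1) m (S.sys Y) hF l) (e j)
      (α j) (he j) (hα j)
    let X : Fin r → 𝒯 := fun j => B⟦e j⟧
    obtain ⟨ho, hK⟩ := hV2 (cmap S d b) fun j =>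
      (gc_unit_shift (add_zero (e j)) q (b j)).trans (hb j)
    obtain ⟨X₀, ι, h, hT⟩ := distinguished_cocone_triangle₁ (Sigma.desc b)
    have hX₀ : FExt d i m (S.sys X₀) := V3 S.src d i m _ _ (kmap b hT) (kmap_inj b hT ho)
      (kmap_onto b hT) hK
    have hZc : H395.PComplete p (∐ X) := pComplete_coprod fun j => hB.shift (e j)
    have hX₀c : H395.PComplete p X₀ := H395.PComplete.ext₁ _ hT hZc hYc
    have hZT : T.Thick B (∐ X) := T.Thick.coprod X fun j => T.Thick.shift (e j) T.Thick.base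
    obtain ⟨Y', hY', hYc', h0', hiso'⟩ := ih X₀ d hX₀ hX₀c
    refine ⟨Y', fun hY'T => T.Thick.cof hT (hY' hY'T) hZT, hYc', fun k hk g => ?_, fun k hk => ?_⟩
    · by_cases hki : d ≤ k + i
      · exact h0' k hki g
      · obtain ⟨φ⟩ := hiso' k (by omega)
        rw [← φ.map_eq_zero_iff]
        refine tri_inj hT (φ g) (fun y => desc_surj' b ho (by push_cast at hk; omega) y) ?_
        exact pi_shift_zero hB0 e (fun j => by have := he j; omega) _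
    · obtain ⟨φ⟩ := hiso' k (by push_cast at hk; omega)
      obtain ⟨ψ⟩ := tri_equiv (A := 𝟙_ 𝒯) (k := k + i) hT
        (fun z => pi_shift_zero hB0 e (fun j => by have := he j; push_cast at hk; omega) z)
        (fun z => pi_shift_zero hB0 e (fun j => by have := he j; push_cast at hk; omega) z)
      have e1 : k + ((i + 1 : ℕ) : ℤ) = k + i + 1 := by push_cast; ring
      rw [e1]
      exact ⟨φ.trans ψ⟩

end main

end Vale.Agent.P221.V
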